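import Mathlib

/-!
# P032: hexagons of pairs of five colours, no antipodal pairs fill the colours `1, .., 4`

`Bx t`: palettes of two or three of the five colours (masks below 32), neighbours disjoint if one is a
pair, at most one common colour otherwise.  `Wd h`: words of pairs.  `F1`: two words of different classes
below one box: all palettes are triples.  `F2`: then the box alternates, or the letters are a cut, or two
lines are blocked.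
-/

namespace Vale.Agent.P032.Words6.H96

def pcl : List ℕ := [0, 1, 1, 2, 1, 2, 2, 3, 1, 2, 2, 3, 2, 3, 3, 4, 1, 2, 2, 3, 2, 3, 3, 4, 2, 3, 3,
  4, 3, 4, 4, 5]

/-- number of colours of a mask -/
def pc (m : ℕ) : ℕ := pcl.getD m 0

def prs : List ℕ := [3, 5, 6, 9, 10, 12, 17, 18, 20, 24]

def trs : List ℕ := [7, 11, 13, 14, 19, 21, 22, 25, 26, 28]

def pals : List ℕ := prs ++ trs

def okp (a b : ℕ) : Bool :=
  cond (Nat.beq (pc a) 2 || Nat.beq (pc b) 2) (Nat.beq (Nat.land a b) 0)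
    (Nat.ble (pc (Nat.land a b)) 1)

def nbp (a : ℕ) : List ℕ := pals.filter fun b => okp a b

def sub2 (t : ℕ) : List ℕ := prs.filter fun p => Nat.beq (Nat.land p t) p

def dj (a b : ℕ) : Bool := Nat.beq (Nat.land a b) 0

def n30 (a b : ℕ) : Bool := !(Nat.beq (Nat.lor a b) 30)

structure W6 where
  a : ℕ
  b : ℕ
  c : ℕ
  d : ℕ
  e : ℕ
  f : ℕ

def wds (t0 t1 t2 t3 t4 t5 : ℕ) : List W6 :=
  (sub2 t0).flatMap fun a => (sub2 t1).flatMap fun b => cond (dj a b) ((sub2 t2).flatMap fun c =>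
    cond (dj b c) ((sub2 t3).flatMap fun d => cond (dj c d && n30 a d) ((sub2 t4).flatMap fun e =>
      cond (dj d e && n30 b e) ((sub2 t5).flatMap fun f => cond (dj e f && dj f a && n30 c f)
        [W6.mk a b c d e f] []) []) []) []) []

/-- the class of a word -/
def cl (w : W6) : ℕ :=
  cond (!(w.b.testBit 0) && !(w.d.testBit 0) && !(w.f.testBit 0)) 0
    (cond (!(w.a.testBit 0) && !(w.c.testBit 0) && !(w.e.testBit 0)) 1
      (cond (w.a.testBit 0) 2 (cond (w.b.testBit 0) 3 4)))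

def same (L : List W6) : Bool :=
  match L with
  | [] => true
  | w :: L' => L'.all fun v => Nat.beq (cl w) (cl v)

def isT (t0 t1 t2 t3 t4 t5 : ℕ) : Bool :=
  Nat.beq (pc t0) 3 && Nat.beq (pc t1) 3 && Nat.beq (pc t2) 3 && Nat.beq (pc t3) 3 &&
    Nat.beq (pc t4) 3 && Nat.beq (pc t5) 3

def altB (t0 t1 t2 t3 t4 t5 : ℕ) : Bool :=
  Nat.beq t0 t2 && Nat.beq t2 t4 && Nat.beq t1 t3 && Nat.beq t3 t5 && Nat.beq (Nat.land t0 t1) 1

def mem6 (m : ℕ) (w : W6) : Bool :=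
  Nat.beq w.a m || Nat.beq w.b m || Nat.beq w.c m || Nat.beq w.d m || Nat.beq w.e m || Nat.beq w.f m

/-- the ten possible cuts: a pair `p, q` and the other three -/
def cuts : List (ℕ × ℕ × ℕ × ℕ × ℕ) := [(1, 2, 4, 8, 16), (1, 4, 2, 8, 16), (1, 8, 2, 4, 16),
  (1, 16, 2, 4, 8), (2, 4, 1, 8, 16), (2, 8, 1, 4, 16), (2, 16, 1, 4, 8), (4, 8, 1, 2, 16),
  (4, 16, 1, 2, 8), (8, 16, 1, 2, 4)]

def cutB (w v : W6) : Bool :=
  cuts.any fun x => (mem6 (Nat.lor x.1 x.2.2.1) w || mem6 (Nat.lor x.1 x.2.2.1) v) &&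
    (mem6 (Nat.lor x.1 x.2.2.2.1) w || mem6 (Nat.lor x.1 x.2.2.2.1) v) &&
    (mem6 (Nat.lor x.1 x.2.2.2.2) w || mem6 (Nat.lor x.1 x.2.2.2.2) v) &&
    (mem6 (Nat.lor x.2.1 x.2.2.1) w || mem6 (Nat.lor x.2.1 x.2.2.1) v) &&
    (mem6 (Nat.lor x.2.1 x.2.2.2.1) w || mem6 (Nat.lor x.2.1 x.2.2.2.1) v) &&
    (mem6 (Nat.lor x.2.1 x.2.2.2.2) w || mem6 (Nat.lor x.2.1 x.2.2.2.2) v)

/-- the orders `(r, s, c, d)` of the masks `2, 4, 8, 16` -/
def rscd : List (ℕ × ℕ × ℕ × ℕ) := [(2, 4, 8, 16), (2, 4, 16, 8), (2, 8, 4, 16), (2, 8, 16, 4),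
  (2, 16, 4, 8), (2, 16, 8, 4), (4, 2, 8, 16), (4, 2, 16, 8), (4, 8, 2, 16), (4, 8, 16, 2),
  (4, 16, 2, 8), (4, 16, 8, 2), (8, 2, 4, 16), (8, 2, 16, 4), (8, 4, 2, 16), (8, 4, 16, 2),
  (8, 16, 2, 4), (8, 16, 4, 2), (16, 2, 4, 8), (16, 2, 8, 4), (16, 4, 2, 8), (16, 4, 8, 2),
  (16, 8, 2, 4), (16, 8, 4, 2)]

/-- the line with palettes `tk`, `tk3` is blocked; `p`, `q`: the letters at its ends -/
def blkB (tk tk3 : ℕ) (p q : W6 → ℕ) (L : List W6) (w v : W6) : Bool :=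
  rscd.any fun x => Nat.beq tk (Nat.lor (Nat.lor x.1 1) x.2.2.2) &&
    Nat.beq tk3 (Nat.lor (Nat.lor x.2.1 1) x.2.2.1) &&
    (mem6 (Nat.lor x.2.2.1 x.2.2.2) w || mem6 (Nat.lor x.2.2.1 x.2.2.2) v) &&
    L.all fun y => Nat.beq (Nat.land (p y) x.1) x.1 && Nat.beq (Nat.land (q y) x.2.1) x.2.1 &&
      cond (Nat.beq (cl y) (cl w)) (Nat.beq (p y) (Nat.lor x.1 x.2.2.2) &&
        Nat.beq (q y) (Nat.lor x.2.1 1)) true &&
      cond (Nat.beq (cl y) (cl v)) (Nat.beq (p y) (Nat.lor x.1 1) &&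
        Nat.beq (q y) (Nat.lor x.2.1 x.2.2.1)) true

def ln0 (t0 t3 : ℕ) (L : List W6) (w v : W6) : Bool :=
  blkB t0 t3 W6.a W6.d L w v || blkB t3 t0 W6.d W6.a L w v

def ln1 (t1 t4 : ℕ) (L : List W6) (w v : W6) : Bool :=
  blkB t1 t4 W6.b W6.e L w v || blkB t4 t1 W6.e W6.b L w v

def ln2 (t2 t5 : ℕ) (L : List W6) (w v : W6) : Bool :=
  blkB t2 t5 W6.c W6.f L w v || blkB t5 t2 W6.f W6.c L w v

def two (t0 t1 t2 t3 t4 t5 : ℕ) (L : List W6) (w v : W6) : Bool :=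
  cond (ln0 t0 t3 L w v) (ln1 t1 t4 L w v || ln2 t2 t5 L w v) (ln1 t1 t4 L w v && ln2 t2 t5 L w v)

def chk2 (t0 t1 t2 t3 t4 t5 : ℕ) (L : List W6) : Bool :=
  same L || (isT t0 t1 t2 t3 t4 t5 && (altB t0 t1 t2 t3 t4 t5 ||
    L.all fun w => L.all fun v => Nat.beq (cl w) (cl v) || cutB w v || two t0 t1 t2 t3 t4 t5 L w v))

def chk (t0 : ℕ) : Bool :=
  (nbp t0).all fun t1 => (nbp t1).all fun t2 => (nbp t2).all fun t3 => (nbp t3).all fun t4 =>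
    (nbp t4).all fun t5 => !(okp t5 t0) || chk2 t0 t1 t2 t3 t4 t5 (wds t0 t1 t2 t3 t4 t5)

theorem chk_all : (pals.all fun t => chk t) = true := by decide +kernel

def rotB (w : W6) : Bool := !(Nat.beq (cl ⟨w.b, w.c, w.d, w.e, w.f, w.a⟩) (cl w))

theorem rot_all : ((wds 31 31 31 31 31 31).all fun w => rotB w) = true := by decide +kernel

end Vale.Agent.P032.Words6.H96
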